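import Mathlib

/-!
A smooth convex curve around a compact convex set, from a log-sum-exp support function.
-/

namespace Vale.Agent.P123

open Finset Real

/-- The component of `w` in direction `exp (i t)`. -/
noncomputable def dirc (t : ℝ) (w : ℂ) : ℝ := w.re * cos t + w.im * sin t

/-- The component of `w` in direction `i exp (i t)`. -/
noncomputable def dirc' (t : ℝ) (w : ℂ) : ℝ := -w.re * sin t + w.im * cos t

theorem hasDerivAt_dirc (t : ℝ) (w : ℂ) : HasDerivAt (fun t => dirc t w) (dirc' t w) t := by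
  unfold dirc dirc'
  exact (((hasDerivAt_cos t).const_mul w.re).add ((hasDerivAt_sin t).const_mul w.im)).congr_deriv
    (by ring)

theorem hasDerivAt_dirc' (t : ℝ) (w : ℂ) : HasDerivAt (fun t => dirc' t w) (-dirc t w) t := by
  unfold dirc dirc'
  exact (((hasDerivAt_sin t).const_mul (-w.re)).add
    ((hasDerivAt_cos t).const_mul w.im)).congr_deriv (by ring)

theorem dirc_le_add_norm (t : ℝ) (w v : ℂ) : dirc t w ≤ dirc t v + ‖w - v‖ := by
  have h1 : dirc t w - dirc t v = ((w - v) * Complex.exp ((-t : ℝ) * Complex.I)).re := by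
    rw [Complex.mul_re, Complex.exp_ofReal_mul_I_re, Complex.exp_ofReal_mul_I_im, cos_neg, sin_neg]
    simp only [dirc, Complex.sub_re, Complex.sub_im]
    ring
  have h2 := Complex.re_le_norm ((w - v) * Complex.exp ((-t : ℝ) * Complex.I))
  rw [norm_mul, Complex.norm_exp_ofReal_mul_I, mul_one] at h2
  linarith

/-- A smooth periodic support function with its first two derivatives. -/
structure Support where
  h : ℝ → ℝ
  h1 : ℝ → ℝ
  h2 : ℝ → ℝ
  deriv_h : ∀ t, HasDerivAt h (h1 t) t
  deriv_h1 : ∀ t, HasDerivAt h1 (h2 t) t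
  cont_h2 : Continuous h2
  per : h (2 * π) = h 0
  per1 : h1 (2 * π) = h1 0
  conv : ∀ t, 0 ≤ h t + h2 t
  pos : ∀ t, 0 < h t

/-- The point of the curve with normal direction `exp (i t)`. -/
noncomputable def Support.pt (S : Support) (t : ℝ) : ℂ :=
  ⟨S.h t * cos t - S.h1 t * sin t, S.h t * sin t + S.h1 t * cos t⟩

theorem Support.dirc_pt (S : Support) (t : ℝ) : dirc t (S.pt t) = S.h t := by
  simp only [dirc, Support.pt]
  linear_combination (S.h t) * sin_sq_add_cos_sq t

theorem exists_support {W : Set ℂ} (hW : IsCompact W) (hc : Convex ℝ W) (h0 : (0 : ℂ) ∈ W)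
    {δ : ℝ} (hδ : 0 < δ) :
    ∃ S : Support, (∀ t, ∀ w ∈ W, dirc t w < S.h t) ∧ ∀ t, ∃ w ∈ W, ‖S.pt t - w‖ ≤ δ := by
  classical
  obtain ⟨s₀, hsub, hfin, hcov⟩ := Metric.finite_approx_of_totallyBounded hW.totallyBounded
    (δ / 4) (by positivity)
  set s := insert (0 : ℂ) hfin.toFinset with hs
  have hsW : ∀ w ∈ s, w ∈ W := by
    intro w hw
    rcases mem_insert.1 hw with rfl | hw
    · exact h0
    · exact hsub (hfin.mem_toFinset.1 hw)
  have hne : s.Nonempty := insert_nonempty _ _
  have hm : (1 : ℝ) ≤ s.card := by exact_mod_cast hne.card_pos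
  set β := (Real.log s.card + 1) / (δ / 2) with hβ
  have hlog : 0 ≤ Real.log s.card := Real.log_nonneg hm
  have hβ0 : 0 < β := by positivity
  set Z : ℝ → ℝ := fun t => ∑ w ∈ s, exp (β * dirc t w) with hZ
  have hZ0 : ∀ t, 0 < Z t := fun t => sum_pos (fun w _ => exp_pos _) hne
  set p : ℂ → ℝ → ℝ := fun w t => exp (β * dirc t w) / Z t with hp
  have hp0 : ∀ w t, 0 < p w t := fun w t => div_pos (exp_pos _) (hZ0 t)
  have hp1 : ∀ t, ∑ w ∈ s, p w t = 1 := fun t => by
    simp only [hp, ← sum_div]
    exact div_self (hZ0 t).ne'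
  set m : ℝ → ℝ := fun t => ∑ w ∈ s, p w t * dirc' t w with hm'
  have hdZ : ∀ t, HasDerivAt Z (β * Z t * m t) t := by
    intro t
    refine (HasDerivAt.fun_sum fun w _ => ((hasDerivAt_dirc t w).const_mul β).exp).congr_deriv ?_
    simp only [hm', hp, mul_sum]
    exact sum_congr rfl fun w _ => by field_simp [(hZ0 t).ne']
  have hdp : ∀ w t, HasDerivAt (p w) (β * p w t * (dirc' t w - m t)) t := by
    intro w t
    refine ((((hasDerivAt_dirc t w).const_mul β).exp).div (hdZ t) (hZ0 t).ne').congr_deriv ?_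
    simp only [hp]
    field_simp [(hZ0 t).ne']
  set v : ℝ → ℝ := fun t => ∑ w ∈ s, p w t * (dirc' t w - m t) * dirc' t w with hv
  have hdm : ∀ t, HasDerivAt m (β * v t - ∑ w ∈ s, p w t * dirc t w) t := by
    intro t
    refine (HasDerivAt.fun_sum fun w _ => (hdp w t).mul (hasDerivAt_dirc' t w)).congr_deriv ?_
    simp only [hv, mul_sum, ← sum_sub_distrib]
    exact sum_congr rfl fun w _ => by ring
  have hv0 : ∀ t, 0 ≤ v t := by
    intro t
    have h1 : v t = ∑ w ∈ s, p w t * (dirc' t w - m t) ^ 2 := by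
      have h2 : ∑ w ∈ s, p w t * (dirc' t w - m t) * m t = 0 := by
        rw [← sum_mul]
        simp only [mul_sub, sum_sub_distrib]
        rw [← sum_mul, hp1, one_mul, hm', sub_self, zero_mul]
      calc v t = v t - ∑ w ∈ s, p w t * (dirc' t w - m t) * m t := by rw [h2, sub_zero]
        _ = _ := by
          simp only [hv, ← sum_sub_distrib]
          exact sum_congr rfl fun w _ => by ring
    rw [h1]
    exact sum_nonneg fun w _ => mul_nonneg (hp0 w t).le (sq_nonneg _)
  set h : ℝ → ℝ := fun t => δ / 2 + Real.log (Z t) / β with hh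
  set μ : ℝ → ℝ := fun t => ∑ w ∈ s, p w t * dirc t w with hμ
  have hbelow : ∀ t, ∀ w ∈ s, δ / 2 + dirc t w ≤ h t := by
    intro t w hw
    simp only [hh]
    rw [add_le_add_iff_left, le_div_iff₀ hβ0, le_log_iff_exp_le (hZ0 t), mul_comm]
    exact single_le_sum (f := fun w => exp (β * dirc t w)) (fun w _ => (exp_pos _).le) hw
  have hmean : ∀ t, δ / 2 + μ t ≤ h t := by
    intro t
    calc δ / 2 + μ t = ∑ w ∈ s, p w t * (δ / 2 + dirc t w) := by
          simp only [hμ, mul_add, sum_add_distrib, ← sum_mul, hp1, one_mul]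
      _ ≤ ∑ w ∈ s, p w t * h t :=
          sum_le_sum fun w hw => mul_le_mul_of_nonneg_left (hbelow t w hw) (hp0 w t).le
      _ = h t := by rw [← sum_mul, hp1, one_mul]
  have hent : ∀ t, h t - μ t ≤ δ := by
    intro t
    have h1 : ∀ w ∈ s, p w t * (Real.log (Z t) - β * dirc t w - Real.log s.card)
        ≤ (s.card : ℝ)⁻¹ - p w t := by
      intro w _
      have e : Real.log (Z t) - β * dirc t w - Real.log s.card
          = Real.log (1 / ((s.card : ℝ) * p w t)) := by
        rw [one_div, log_inv, log_mul (by positivity) (hp0 w t).ne', hp,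
          log_div (exp_pos _).ne' (hZ0 t).ne', log_exp]
        ring
      rw [e]
      have hpos : 0 < 1 / ((s.card : ℝ) * p w t) := by have := hp0 w t; positivity
      refine (mul_le_mul_of_nonneg_left (log_le_sub_one_of_pos hpos) (hp0 w t).le).trans
        (le_of_eq ?_)
      field_simp [(hp0 w t).ne']
    have h2 := sum_le_sum h1
    simp only [mul_sub, sum_sub_distrib, ← sum_mul, hp1, one_mul, sum_const, nsmul_eq_mul,
      mul_inv_cancel₀ (show (s.card : ℝ) ≠ 0 by positivity), sub_self] at h2
    have h3 : ∑ w ∈ s, p w t * (β * dirc t w) = β * μ t := by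
      rw [hμ, mul_sum]
      exact sum_congr rfl fun w _ => by ring
    rw [h3] at h2
    have h4 : β * (δ / 2) = Real.log s.card + 1 := by rw [hβ]; field_simp
    have h5 : β * (h t) = β * (δ / 2) + Real.log (Z t) := by
      simp only [hh]; field_simp
    have h6 : β * (h t - μ t) ≤ β * δ := by nlinarith
    exact le_of_mul_le_mul_left h6 hβ0
  have hcZ : Continuous Z := continuous_iff_continuousAt.2 fun t => (hdZ t).continuousAt
  have hcp : ∀ w, Continuous (p w) := fun w =>
    continuous_iff_continuousAt.2 fun t => (hdp w t).continuousAt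
  have hcm : Continuous m := continuous_iff_continuousAt.2 fun t => (hdm t).continuousAt
  refine ⟨{
    h := h
    h1 := m
    h2 := fun t => β * v t - μ t
    deriv_h := fun t => ?_
    deriv_h1 := hdm
    cont_h2 := by simp only [hv, hμ, dirc, dirc']; fun_prop
    per := by simp [hh, hZ, dirc]
    per1 := by simp [hm', hp, hZ, dirc, dirc']
    conv := fun t => by
      have := hmean t
      have := mul_nonneg hβ0.le (hv0 t)
      linarith
    pos := fun t => by
      have := hbelow t 0 (mem_insert_self _ _)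
      simp [dirc] at this
      linarith }, ?_, ?_⟩
  · refine ((((hdZ t).log (hZ0 t).ne').div_const β).const_add (δ / 2)).congr_deriv ?_
    field_simp [(hZ0 t).ne']
  · intro t w hw
    obtain ⟨v', hv', hd⟩ : ∃ v' ∈ s₀, dist w v' < δ / 4 := by simpa using hcov hw
    have h1 := dirc_le_add_norm t w v'
    have h2 := hbelow t v' (mem_insert_of_mem (hfin.mem_toFinset.2 hv'))
    rw [dist_eq_norm] at hd
    simp only at h2 ⊢
    linarith
  · intro t
    refine ⟨∑ w ∈ s, p w t • w, hc.sum_mem (fun w _ => (hp0 w t).le) (hp1 t) hsW, ?_⟩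
    have e : (⟨h t * cos t - m t * sin t, h t * sin t + m t * cos t⟩ : ℂ) - ∑ w ∈ s, p w t • w
        = ((h t - μ t : ℝ) : ℂ) * Complex.exp ((t : ℂ) * Complex.I) := by
      have r1 : ∑ w ∈ s, p w t * w.re = μ t * cos t - m t * sin t := by
        simp only [hμ, hm', sum_mul, ← sum_sub_distrib]
        refine sum_congr rfl fun w _ => ?_
        simp only [dirc, dirc']
        linear_combination -(p w t * w.re) * sin_sq_add_cos_sq t
      have r2 : ∑ w ∈ s, p w t * w.im = μ t * sin t + m t * cos t := by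
        simp only [hμ, hm', sum_mul, ← sum_add_distrib]
        refine sum_congr rfl fun w _ => ?_
        simp only [dirc, dirc']
        linear_combination -(p w t * w.im) * sin_sq_add_cos_sq t
      apply Complex.ext
      · simp [Complex.exp_ofReal_mul_I_re, Complex.exp_ofReal_mul_I_im, r1]
        ring
      · simp [Complex.exp_ofReal_mul_I_re, Complex.exp_ofReal_mul_I_im, r2]
        ring
    change ‖(⟨h t * cos t - m t * sin t, h t * sin t + m t * cos t⟩ : ℂ) - _‖ ≤ δ
    rw [e, norm_mul, Complex.norm_exp_ofReal_mul_I, mul_one, Complex.norm_real, Real.norm_eq_abs,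
      abs_of_nonneg (by linarith [hmean t])]
    exact hent t

end Vale.Agent.P123
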