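import Mathlib
import Vale.Agent.P123.Curve

/-!
The resolvent of an operator on a curve around its numerical range, and the Cauchy formula for
polynomials.
-/

namespace Vale.Agent.P123

open scoped ComplexConjugate InnerProductSpace Real
open MeasureTheory

/-- The derivative of the curve. -/
noncomputable def Support.dpt (S : Support) (t : ℝ) : ℂ :=
  ((S.h t + S.h2 t : ℝ) : ℂ) * Complex.I * Complex.exp ((t : ℂ) * Complex.I)

theorem Support.pt_eq (S : Support) (t : ℝ) :
    S.pt t = Complex.exp ((t : ℂ) * Complex.I) * ((S.h t : ℂ) + (S.h1 t : ℂ) * Complex.I) := by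
  apply Complex.ext <;>
    simp [Support.pt, Complex.exp_ofReal_mul_I_re, Complex.exp_ofReal_mul_I_im] <;> ring

theorem Support.hasDerivAt_pt (S : Support) (t : ℝ) : HasDerivAt S.pt (S.dpt t) t := by
  rw [show S.pt = fun t : ℝ => Complex.exp ((t : ℂ) * Complex.I)
    * ((S.h t : ℂ) + (S.h1 t : ℂ) * Complex.I) from funext S.pt_eq]
  refine (((((hasDerivAt_id (t : ℂ)).comp_ofReal).mul_const Complex.I).cexp).mul
    ((S.deriv_h t).ofReal_comp.add ((S.deriv_h1 t).ofReal_comp.mul_const Complex.I))).congr_deriv ?_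
  simp only [Support.dpt, id_eq, one_mul, Pi.add_apply]
  push_cast
  linear_combination (Complex.exp ((t : ℂ) * Complex.I) * (S.h1 t : ℂ)) * Complex.I_sq

theorem Support.continuous_pt (S : Support) : Continuous S.pt :=
  continuous_iff_continuousAt.2 fun t => (S.hasDerivAt_pt t).continuousAt

theorem Support.continuous_dpt (S : Support) : Continuous S.dpt := by
  have h1 : Continuous S.h := continuous_iff_continuousAt.2 fun t => (S.deriv_h t).continuousAt
  have h2 := S.cont_h2
  unfold Support.dpt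
  fun_prop

theorem Support.pt_periodic (S : Support) : S.pt (2 * π) = S.pt 0 := by
  simp [Support.pt, S.per, S.per1]

theorem Support.pt_ne_zero (S : Support) (t : ℝ) : S.pt t ≠ 0 := by
  intro h
  have h1 := S.dirc_pt t
  rw [h] at h1
  simp [dirc] at h1
  linarith [S.pos t]

variable {E : Type*} [NormedAddCommGroup E] [InnerProductSpace ℂ E] [FiniteDimensional ℂ E]
  [CompleteSpace E]

/-- The curve strictly surrounds the numerical range of the operator. -/
def Sep (S : Support) (B : E →L[ℂ] E) : Prop :=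
  ∀ t : ℝ, ∀ u : E, u ≠ 0 → dirc t ⟪u, B u⟫_ℂ < S.h t * ‖u‖ ^ 2

/-- The matrix whose inverse is the resolvent, with scaling parameter `s`. -/
noncomputable def mat (S : Support) (B : E →L[ℂ] E) (s t : ℝ) : E →L[ℂ] E :=
  S.pt t • (1 : E →L[ℂ] E) - (s : ℂ) • B

/-- The resolvent on the curve. -/
noncomputable def res (S : Support) (B : E →L[ℂ] E) (s t : ℝ) : E →L[ℂ] E :=
  Ring.inverse (mat S B s t)

variable {S : Support} {B : E →L[ℂ] E}

theorem isUnit_mat (hS : Sep S B) {s : ℝ} (hs : s ∈ Set.Icc (0 : ℝ) 1) (t : ℝ) :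
    IsUnit (mat S B s t) := by
  have hinj : Function.Injective (mat S B s t) := by
    rw [injective_iff_map_eq_zero]
    intro u hu
    by_contra hne
    have h1 : S.pt t * ⟪u, u⟫_ℂ = (s : ℂ) * ⟪u, B u⟫_ℂ := by
      have := congrArg (fun v => ⟪u, v⟫_ℂ) hu
      simp [mat, inner_sub_right, inner_smul_right, sub_eq_zero] at this
      simpa using this
    have hn : ⟪u, u⟫_ℂ = ((‖u‖ ^ 2 : ℝ) : ℂ) := by
      push_cast
      exact_mod_cast inner_self_eq_norm_sq_to_K (𝕜 := ℂ) u
    rw [hn] at h1
    have h2 := congrArg (dirc t) h1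
    have e : ∀ (z : ℂ) (r : ℝ), dirc t (z * r) = r * dirc t z := by
      intro z r; simp [dirc]; ring
    rw [e, S.dirc_pt, mul_comm (s : ℂ), e] at h2
    have h3 := hS t u hne
    have h4 : 0 < S.h t * ‖u‖ ^ 2 := mul_pos (S.pos t) (by positivity)
    rcases le_total (dirc t ⟪u, B u⟫_ℂ) 0 with hd | hd
    · nlinarith [hs.1]
    · nlinarith [hs.2]
  rw [ContinuousLinearMap.isUnit_iff_bijective]
  exact ⟨hinj, (LinearMap.injective_iff_surjective (f := (mat S B s t : E →ₗ[ℂ] E))).1 hinj⟩

theorem continuous_mat : Continuous fun p : ℝ × ℝ => mat S B p.1 p.2 := by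
  have := S.continuous_pt
  unfold mat
  fun_prop

theorem continuousOn_res (hS : Sep S B) :
    ContinuousOn (fun p : ℝ × ℝ => res S B p.1 p.2) (Set.Icc (0 : ℝ) 1 ×ˢ Set.univ) := by
  intro p hp
  obtain ⟨x, hx⟩ := isUnit_mat hS hp.1 p.2
  have h := NormedRing.inverse_continuousAt x
  rw [hx] at h
  exact (h.comp (f := fun p : ℝ × ℝ => mat S B p.1 p.2) continuous_mat.continuousAt).continuousWithinAt

theorem continuous_res (hS : Sep S B) {s : ℝ} (hs : s ∈ Set.Icc (0 : ℝ) 1) :
    Continuous fun t => res S B s t :=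
  (continuousOn_res hS).comp_continuous (by fun_prop : Continuous fun t : ℝ => (s, t))
    fun _ => ⟨hs, trivial⟩

theorem commute_res {T : E →L[ℂ] E} (hT : Commute T B) (s t : ℝ) : Commute T (res S B s t) := by
  unfold res
  by_cases h : IsUnit (mat S B s t)
  · obtain ⟨x, hx⟩ := h
    rw [← hx, Ring.inverse_unit]
    apply Commute.units_inv_right
    rw [hx]
    exact ((Commute.one_right T).smul_right _).sub_right (hT.smul_right _)
  · rw [Ring.inverse_non_unit _ h]
    exact Commute.zero_right T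

theorem hasDerivAt_inverse_affine (P Q : E →L[ℂ] E) {z : ℂ} (h : IsUnit (P + z • Q)) (u v : E) :
    HasDerivAt (fun w : ℂ => ⟪u, Ring.inverse (P + w • Q) v⟫_ℂ)
      (-⟪u, (Ring.inverse (P + z • Q) * Q * Ring.inverse (P + z • Q)) v⟫_ℂ) z := by
  obtain ⟨x, hx⟩ := h
  have h1 : HasDerivAt (fun w : ℂ => P + w • Q) Q z := by
    simpa using ((hasDerivAt_id z).smul_const Q).const_add P
  have h2 := hasFDerivAt_ringInverse (𝕜 := ℂ) x
  rw [hx] at h2
  have h3 := h2.comp_hasDerivAt z h1
  let L : (E →L[ℂ] E) →L[ℂ] ℂ := (innerSL ℂ u).comp (ContinuousLinearMap.apply ℂ E v)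
  refine (L.hasFDerivAt.comp_hasDerivAt z h3).congr_deriv ?_
  rw [← hx, Ring.inverse_unit]
  simp [L]

theorem hasDerivAt_res_t (hS : Sep S B) {s : ℝ} (hs : s ∈ Set.Icc (0 : ℝ) 1) (t : ℝ) (u v : E) :
    HasDerivAt (fun t => ⟪u, res S B s t v⟫_ℂ)
      (S.dpt t * -⟪u, (res S B s t * res S B s t) v⟫_ℂ) t := by
  have e : ∀ z : ℂ, z • (1 : E →L[ℂ] E) - (s : ℂ) • B = -((s : ℂ) • B) + z • 1 := fun z => by abel
  have h0 : IsUnit (-((s : ℂ) • B) + S.pt t • (1 : E →L[ℂ] E)) := by
    rw [← e]; exact isUnit_mat hS hs t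
  have h := (hasDerivAt_inverse_affine _ _ h0 u v).scomp t (S.hasDerivAt_pt t)
  simp only [mul_one, ← e, smul_eq_mul, Function.comp_def] at h
  exact h

theorem hasDerivAt_res_s (hS : Sep S B) {s : ℝ} (hs : s ∈ Set.Icc (0 : ℝ) 1) (t : ℝ) (u v : E) :
    HasDerivAt (fun s => ⟪u, res S B s t v⟫_ℂ)
      (⟪u, (res S B s t * res S B s t) (B v)⟫_ℂ) s := by
  have e : ∀ z : ℂ, S.pt t • (1 : E →L[ℂ] E) - z • B = S.pt t • 1 + z • (-B) := fun z => by
    rw [smul_neg]; abel
  have h0 : IsUnit (S.pt t • (1 : E →L[ℂ] E) + (s : ℂ) • (-B)) := by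
    rw [← e]; exact isUnit_mat hS hs t
  have h := (hasDerivAt_inverse_affine _ _ h0 u v).comp_ofReal
  simp only [← e] at h
  refine h.congr_deriv ?_
  change -⟪u, (res S B s t * (-B) * res S B s t) v⟫_ℂ = _
  rw [mul_neg, neg_mul, mul_assoc, (commute_res (Commute.refl B) s t).eq, ← mul_assoc]
  simp

/-- The winding integral is the identity. -/
theorem winding (hS : Sep S B) (u v : E) :
    ∫ t in (0 : ℝ)..2 * π, S.dpt t * ⟪u, res S B 1 t v⟫_ℂ = 2 * π * Complex.I * ⟪u, v⟫_ℂ := by
  have h0 : ∫ t in (0 : ℝ)..2 * π, S.dpt t * ⟪u, res S B 0 t v⟫_ℂ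
      = 2 * π * Complex.I * ⟪u, v⟫_ℂ := by
    have hres : ∀ t, res S B 0 t = (S.pt t)⁻¹ • (1 : E →L[ℂ] E) := by
      intro t
      have h := isUnit_mat hS (s := 0) ⟨le_rfl, zero_le_one⟩ t
      have : mat S B 0 t * ((S.pt t)⁻¹ • (1 : E →L[ℂ] E)) = 1 := by
        simp [mat, smul_smul, S.pt_ne_zero t]
      unfold res
      calc Ring.inverse (mat S B 0 t)
          = Ring.inverse (mat S B 0 t) * (mat S B 0 t * ((S.pt t)⁻¹ • (1 : E →L[ℂ] E))) := by
            rw [this, mul_one]
        _ = _ := by rw [← mul_assoc, Ring.inverse_mul_cancel _ h, one_mul]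
    let L : ℝ → ℂ := fun t => (t : ℂ) * Complex.I
      + Complex.log ((S.h t : ℂ) + (S.h1 t : ℂ) * Complex.I)
    have hL : ∀ t, HasDerivAt L (S.dpt t / S.pt t) t := by
      intro t
      have hz : ((S.h t : ℂ) + (S.h1 t : ℂ) * Complex.I) ∈ Complex.slitPlane :=
        Or.inl (by simpa using S.pos t)
      have hne := Complex.slitPlane_ne_zero hz
      refine ((((hasDerivAt_id (t : ℂ)).comp_ofReal).mul_const Complex.I).add
        (((S.deriv_h t).ofReal_comp.add ((S.deriv_h1 t).ofReal_comp.mul_const Complex.I)).clog_real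
          hz)).congr_deriv ?_
      rw [S.pt_eq, Support.dpt, one_mul]
      simp only [Pi.add_apply]
      generalize hzz : (S.h t : ℂ) + (S.h1 t : ℂ) * Complex.I = z at hne ⊢
      field_simp [Complex.exp_ne_zero, hne]
      rw [← hzz]
      push_cast
      linear_combination (S.h1 t : ℂ) * Complex.I_sq
    have hint : ∫ t in (0 : ℝ)..2 * π, S.dpt t / S.pt t = 2 * π * Complex.I := by
      rw [intervalIntegral.integral_eq_sub_of_hasDerivAt (fun t _ => hL t)
        ((S.continuous_dpt.div S.continuous_pt S.pt_ne_zero).intervalIntegrable _ _)]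
      simp [L, S.per, S.per1]
    calc ∫ t in (0 : ℝ)..2 * π, S.dpt t * ⟪u, res S B 0 t v⟫_ℂ
        = ∫ t in (0 : ℝ)..2 * π, S.dpt t / S.pt t * ⟪u, v⟫_ℂ := by
          congr 1
          ext t
          rw [hres]
          simp [inner_smul_right]
          ring
      _ = _ := by rw [intervalIntegral.integral_mul_const, hint]
  let F : ℝ → ℝ → ℂ := fun t s => S.dpt t * ⟪u, (res S B s t * res S B s t) (B v)⟫_ℂ
  have hF : ContinuousOn F.uncurry (Set.univ ×ˢ Set.Icc (0 : ℝ) 1) := by
    have h1 : ContinuousOn (fun p : ℝ × ℝ => res S B p.2 p.1) (Set.univ ×ˢ Set.Icc (0 : ℝ) 1) :=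
      (continuousOn_res hS).comp (f := Prod.swap) continuous_swap.continuousOn
        fun p hp => ⟨hp.2, trivial⟩
    have := S.continuous_dpt
    exact (this.comp continuous_fst).continuousOn.mul
      ((continuous_const.inner continuous_id).comp_continuousOn
        ((h1.mul h1).clm_apply continuousOn_const))
  have hint : IntegrableOn F.uncurry (Set.uIoc 0 (2 * π) ×ˢ Set.uIoc (0 : ℝ) 1) :=
    ((hF.mono (Set.prod_mono (Set.subset_univ _) subset_rfl)).integrableOn_compact
      ((isCompact_uIcc (a := (0 : ℝ)) (b := 2 * π)).prod isCompact_Icc)).mono_set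
      (Set.prod_mono Set.uIoc_subset_uIcc
        (by rw [Set.uIoc_of_le zero_le_one]; exact Set.Ioc_subset_Icc_self))
  have hswap := intervalIntegral_intervalIntegral_swap hint
  have hzero : ∀ s ∈ Set.uIcc (0 : ℝ) 1, ∫ t in (0 : ℝ)..2 * π, F t s = 0 := by
    intro s hs
    rw [Set.uIcc_of_le zero_le_one] at hs
    have hd := fun t => hasDerivAt_res_t hS hs t u (B v)
    have hper : res S B s (2 * π) = res S B s 0 := by simp [res, mat, S.pt_periodic]
    have hc : Continuous fun t => S.dpt t * -⟪u, (res S B s t * res S B s t) (B v)⟫_ℂ :=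
      S.continuous_dpt.mul (continuous_const.inner
        (((continuous_res hS hs).mul (continuous_res hS hs)).clm_apply continuous_const)).neg
    have := intervalIntegral.integral_eq_sub_of_hasDerivAt (fun t _ => hd t)
      (hc.intervalIntegrable 0 (2 * π))
    rw [hper, sub_self] at this
    simpa [F, intervalIntegral.integral_neg] using this
  have hinner : ∀ t, ∫ s in (0 : ℝ)..1, F t s
      = S.dpt t * ⟪u, res S B 1 t v⟫_ℂ - S.dpt t * ⟪u, res S B 0 t v⟫_ℂ := by
    intro t
    refine intervalIntegral.integral_eq_sub_of_hasDerivAt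
      (f := fun s => S.dpt t * ⟪u, res S B s t v⟫_ℂ) (fun s hs => ?_) ?_
    · rw [Set.uIcc_of_le zero_le_one] at hs
      exact (hasDerivAt_res_s hS hs t u v).const_mul _
    · refine ContinuousOn.intervalIntegrable ?_
      rw [Set.uIcc_of_le zero_le_one]
      exact hF.comp (f := fun s : ℝ => (t, s)) (by fun_prop) fun s hs => ⟨trivial, hs⟩
  rw [intervalIntegral.integral_congr (g := fun t => S.dpt t * ⟪u, res S B 1 t v⟫_ℂ
      - S.dpt t * ⟪u, res S B 0 t v⟫_ℂ) (fun t _ => hinner t),
    intervalIntegral.integral_congr (g := fun _ => (0 : ℂ)) hzero] at hswap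
  rw [intervalIntegral.integral_zero, intervalIntegral.integral_sub, h0, sub_eq_zero] at hswap
  · exact hswap
  all_goals
    refine (S.continuous_dpt.mul (continuous_const.inner
      ((continuous_res hS ?_).clm_apply continuous_const))).intervalIntegrable _ _
    simp

/-- The kernel density `γ'(t) / (2 π i)`. -/
noncomputable def Support.den (S : Support) (t : ℝ) : ℂ :=
  ((S.h t + S.h2 t) / (2 * π) : ℝ) * Complex.exp ((t : ℂ) * Complex.I)

theorem Support.dpt_eq_den (S : Support) (t : ℝ) :
    S.dpt t = 2 * π * Complex.I * S.den t := by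
  simp only [Support.dpt, Support.den]
  push_cast
  field_simp

theorem Support.continuous_den (S : Support) : Continuous S.den := by
  have h1 : Continuous S.h := continuous_iff_continuousAt.2 fun t => (S.deriv_h t).continuousAt
  have h2 := S.cont_h2
  unfold Support.den
  fun_prop

/-- The Cauchy functional. -/
noncomputable def cauchy (S : Support) (B : E →L[ℂ] E) (φ : ℝ → ℂ) (u v : E) : ℂ :=
  ∫ t in (0 : ℝ)..2 * π, φ t * (S.den t * ⟪u, res S B 1 t v⟫_ℂ)

theorem continuous_kernel (hS : Sep S B) (u v : E) :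
    Continuous fun t => S.den t * ⟪u, res S B 1 t v⟫_ℂ :=
  S.continuous_den.mul (continuous_const.inner
    ((continuous_res hS ⟨zero_le_one, le_rfl⟩).clm_apply continuous_const))

theorem integral_pow_den (k : ℕ) : ∫ t in (0 : ℝ)..2 * π, S.pt t ^ k * S.den t = 0 := by
  have hd : ∀ t, HasDerivAt (fun t => S.pt t ^ (k + 1) / ((k + 1) * (2 * π * Complex.I)))
      (S.pt t ^ k * S.den t) t := by
    intro t
    refine (((S.hasDerivAt_pt t).fun_pow (k + 1)).div_const _).congr_deriv ?_
    rw [S.dpt_eq_den]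
    have : (k : ℂ) + 1 ≠ 0 := Nat.cast_add_one_ne_zero k
    have hπ : (π : ℂ) ≠ 0 := by exact_mod_cast Real.pi_ne_zero
    simp only [Nat.add_sub_cancel, Nat.cast_add, Nat.cast_one]
    field_simp [Complex.I_ne_zero]
  rw [intervalIntegral.integral_eq_sub_of_hasDerivAt (fun t _ => hd t)
    (((S.continuous_pt.pow k).mul S.continuous_den).intervalIntegrable _ _), S.pt_periodic,
    sub_self]

theorem cauchy_pow (hS : Sep S B) (k : ℕ) (u v : E) :
    cauchy S B (fun t => S.pt t ^ k) u v = ⟪u, (B ^ k) v⟫_ℂ := by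
  induction k generalizing v with
  | zero =>
    have h := winding hS u v
    simp only [S.dpt_eq_den, mul_assoc, intervalIntegral.integral_const_mul] at h
    have hne : (2 * π * Complex.I : ℂ) ≠ 0 := by simp [Real.pi_ne_zero, Complex.I_ne_zero]
    simpa [cauchy] using mul_left_cancel₀ hne (by simpa [mul_assoc] using h)
  | succ k ih =>
    have hstep : ∀ t, S.pt t • res S B 1 t v = v + res S B 1 t (B v) := by
      intro t
      have h := Ring.inverse_mul_cancel _ (isUnit_mat hS (s := 1) ⟨zero_le_one, le_rfl⟩ t)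
      have h2 : res S B 1 t (mat S B 1 t v) = v := by
        rw [← ContinuousLinearMap.comp_apply]
        exact congrArg (fun f : E →L[ℂ] E => f v) h
      simp [mat, map_sub, map_smul, sub_eq_iff_eq_add] at h2
      rw [h2, add_comm]
    have e : ∀ t, S.pt t ^ (k + 1) * (S.den t * ⟪u, res S B 1 t v⟫_ℂ)
        = S.pt t ^ k * S.den t * ⟪u, v⟫_ℂ
          + S.pt t ^ k * (S.den t * ⟪u, res S B 1 t (B v)⟫_ℂ) := by
      intro t
      calc _ = S.pt t ^ k * (S.den t * ⟪u, S.pt t • res S B 1 t v⟫_ℂ) := by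
            rw [inner_smul_right]; ring
        _ = _ := by rw [hstep, inner_add_right]; ring
    unfold cauchy at ih ⊢
    simp only [e]
    rw [intervalIntegral.integral_add, intervalIntegral.integral_mul_const, integral_pow_den,
      zero_mul, zero_add, ih (B v), pow_succ]
    · rfl
    · exact (((S.continuous_pt.pow k).mul S.continuous_den).mul continuous_const).intervalIntegrable
        _ _
    · exact ((S.continuous_pt.pow k).mul (continuous_kernel hS u (B v))).intervalIntegrable _ _

theorem cauchy_poly (hS : Sep S B) (P : Polynomial ℂ) (u v : E) :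
    cauchy S B (fun t => P.eval (S.pt t)) u v = ⟪u, (Polynomial.aeval B P) v⟫_ℂ := by
  induction P using Polynomial.induction_on' with
  | add p q hp hq =>
    unfold cauchy at hp hq ⊢
    simp only [Polynomial.eval_add, add_mul]
    rw [intervalIntegral.integral_add, hp, hq]
    · simp [inner_add_right]
    · exact ((p.continuous.comp S.continuous_pt).mul
        (continuous_kernel hS u v)).intervalIntegrable _ _
    · exact ((q.continuous.comp S.continuous_pt).mul
        (continuous_kernel hS u v)).intervalIntegrable _ _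
  | monomial k a =>
    have h := cauchy_pow hS k u v
    unfold cauchy at h ⊢
    simp only [Polynomial.eval_monomial, mul_assoc, intervalIntegral.integral_const_mul]
    rw [h, Polynomial.aeval_monomial]
    simp [Algebra.algebraMap_eq_smul_one, inner_smul_right]

end Vale.Agent.P123
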