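import Mathlib
import Vale.Agent.P123.Cauchy

/-!
The positive double-layer kernel and the telescoping estimate giving the constant two.
-/

namespace Vale.Agent.P123

open scoped ComplexConjugate InnerProductSpace Real
open MeasureTheory Finset

variable {E : Type*} [NormedAddCommGroup E] [InnerProductSpace ℂ E] [FiniteDimensional ℂ E]
  [CompleteSpace E]
variable {S : Support} {B : E →L[ℂ] E}

/-- The Hermitian double-layer kernel. -/
noncomputable def dlk (S : Support) (B : E →L[ℂ] E) (t : ℝ) (u v : E) : ℂ :=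
  S.den t * ⟪u, res S B 1 t v⟫_ℂ + conj (S.den t * ⟪v, res S B 1 t u⟫_ℂ)

theorem dlk_conj (t : ℝ) (u v : E) : conj (dlk S B t u v) = dlk S B t v u := by
  simp only [dlk, map_add, Complex.conj_conj]
  ring

theorem dlk_nonneg (hS : Sep S B) (t : ℝ) (u : E) : 0 ≤ (dlk S B t u u).re := by
  set w := res S B 1 t u with hw
  have hu : u = S.pt t • w - B w := by
    have h := Ring.mul_inverse_cancel _ (isUnit_mat hS (s := 1) ⟨zero_le_one, le_rfl⟩ t)
    have h2 : mat S B 1 t w = u := by
      rw [hw, ← ContinuousLinearMap.comp_apply]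
      exact congrArg (fun f : E →L[ℂ] E => f u) h
    simpa [mat] using h2.symm
  have key : 0 ≤ (S.den t * ⟪u, w⟫_ℂ).re := by
    rcases eq_or_ne w 0 with h0 | h0
    · simp [h0]
    have h3 := hS t w h0
    have hww : ⟪w, w⟫_ℂ = ((‖w‖ ^ 2 : ℝ) : ℂ) := by
      push_cast
      exact_mod_cast inner_self_eq_norm_sq_to_K (𝕜 := ℂ) w
    have e : ⟪u, w⟫_ℂ = conj (S.pt t * ((‖w‖ ^ 2 : ℝ) : ℂ) - ⟪w, B w⟫_ℂ) := by
      rw [hu, inner_sub_left, inner_smul_left, hww, map_sub, map_mul, Complex.conj_ofReal,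
        inner_conj_symm]
    have e2 : ∀ z : ℂ, (S.den t * conj z).re
        = (S.h t + S.h2 t) / (2 * π) * dirc t z := by
      intro z
      simp only [Support.den, dirc, Complex.mul_re, Complex.mul_im, Complex.ofReal_re,
        Complex.ofReal_im, Complex.conj_re, Complex.conj_im, Complex.exp_ofReal_mul_I_re,
        Complex.exp_ofReal_mul_I_im]
      ring
    rw [e, e2]
    refine mul_nonneg (div_nonneg (S.conv t) (by positivity)) ?_
    have e3 : dirc t (S.pt t * ((‖w‖ ^ 2 : ℝ) : ℂ) - ⟪w, B w⟫_ℂ)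
        = dirc t (S.pt t) * ‖w‖ ^ 2 - dirc t ⟪w, B w⟫_ℂ := by
      simp only [dirc, Complex.sub_re, Complex.sub_im, Complex.mul_re, Complex.mul_im,
        Complex.ofReal_re, Complex.ofReal_im]
      ring
    rw [e3, S.dirc_pt]
    linarith
  simp only [dlk, Complex.add_re, Complex.conj_re, ← hw]
  linarith

theorem dlk_sub_right (t : ℝ) (u v v' : E) :
    dlk S B t u (v - v') = dlk S B t u v - dlk S B t u v' := by
  simp only [dlk, map_sub, inner_sub_left, inner_sub_right, mul_sub]
  ring

theorem dlk_sub_left (t : ℝ) (u u' v : E) :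
    dlk S B t (u - u') v = dlk S B t u v - dlk S B t u' v := by
  simp only [dlk, map_sub, inner_sub_left, inner_sub_right, mul_sub]
  ring

theorem dlk_smul_right (t : ℝ) (a : ℂ) (u v : E) :
    dlk S B t u (a • v) = a * dlk S B t u v := by
  simp only [dlk, map_smul, inner_smul_left, inner_smul_right, map_mul, Complex.conj_conj]
  ring

theorem dlk_smul_left (t : ℝ) (a : ℂ) (u v : E) :
    dlk S B t (a • u) v = conj a * dlk S B t u v := by
  simp only [dlk, map_smul, inner_smul_left, inner_smul_right, map_mul, Complex.conj_conj]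
  ring

theorem continuous_dlk (hS : Sep S B) (u v : E) : Continuous fun t => dlk S B t u v :=
  (continuous_kernel hS u v).add (Complex.continuous_conj.comp (continuous_kernel hS v u))

theorem integral_mul_dlk (hS : Sep S B) {φ : ℝ → ℂ} (hφ : Continuous φ) (u v : E) :
    ∫ t in (0 : ℝ)..2 * π, φ t * dlk S B t u v
      = cauchy S B φ u v + conj (cauchy S B (fun t => conj (φ t)) v u) := by
  unfold cauchy
  rw [← intervalIntegral.intervalIntegral_conj (μ := volume), ← intervalIntegral.integral_add]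
  · congr 1
    ext t
    simp only [dlk, map_mul, Complex.conj_conj]
    ring
  · exact (hφ.mul (continuous_kernel hS u v)).intervalIntegrable _ _
  · exact (Complex.continuous_conj.comp ((Complex.continuous_conj.comp hφ).mul
      (continuous_kernel hS v u))).intervalIntegrable _ _

theorem integral_dlk_self (hS : Sep S B) (u : E) :
    ∫ t in (0 : ℝ)..2 * π, (dlk S B t u u).re = 2 * ‖u‖ ^ 2 := by
  have h1 := integral_mul_dlk hS (φ := fun _ => (1 : ℂ)) continuous_const u u
  have h2 := cauchy_pow hS 0 u u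
  simp only [pow_zero, one_mul, map_one] at h1 h2
  rw [h2] at h1
  have h3 := Complex.reCLM.intervalIntegral_comp_comm (f := fun t => dlk S B t u u)
    ((continuous_dlk hS u u).intervalIntegrable (μ := volume) (0 : ℝ) (2 * π))
  simp only [Complex.reCLM_apply] at h3
  rw [h3, h1]
  have hn : ⟪u, u⟫_ℂ = ((‖u‖ ^ 2 : ℝ) : ℂ) := by
    push_cast
    exact_mod_cast inner_self_eq_norm_sq_to_K (𝕜 := ℂ) u
  simp only [ContinuousLinearMap.one_apply, hn, Complex.add_re, Complex.conj_re, Complex.ofReal_re]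
  ring

theorem dlk_sq_sub (t : ℝ) (w F : E) :
    (dlk S B t (w - F) (w - F)).re
      = (dlk S B t w w).re - 2 * (dlk S B t w F).re + (dlk S B t F F).re := by
  rw [dlk_sub_left, dlk_sub_right, dlk_sub_right, ← dlk_conj t w F]
  simp only [Complex.sub_re, Complex.conj_re]
  ring

/-- The pointwise estimate: positivity and the arithmetic-geometric mean inequality. -/
theorem pointwise_bound (hS : Sep S B) (t : ℝ) {c : ℂ} (hc : ‖c‖ ≤ 1) (x : E) (z : ℕ → E)
    {a : ℝ} (ha : 0 < a) (m : ℕ) :
    (∑ k ∈ range (m + 2), (a : ℂ) ^ k * (c ^ k * dlk S B t (z k) (c • x - z 0))).re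
      ≤ ((dlk S B t x x).re - (dlk S B t (z 0) (z 0)).re) / 2
        + (∑ k ∈ range (m + 1), a ^ (k + 1)) / 2
          * ∑ k ∈ range (m + 1), a ^ (k + 1) * (dlk S B t (z (k + 1)) (z (k + 1))).re := by
  set F := c • x - z 0 with hF
  set L := ∑ k ∈ range (m + 1), a ^ (k + 1) with hL
  have hL0 : 0 < L := sum_pos (fun k _ => pow_pos ha _) nonempty_range_add_one
  have hq := dlk_nonneg hS t
  have hterm : ∀ k : ℕ, (c ^ k * dlk S B t (z k) F).re
      ≤ L * (dlk S B t (z k) (z k)).re / 2 + (dlk S B t F F).re / (2 * L) := by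
    intro k
    set b : ℂ := (L : ℂ) * conj (c ^ k) with hb
    have h1 := hq (b • z k - F)
    rw [dlk_sq_sub, dlk_smul_right, dlk_smul_left, dlk_smul_left] at h1
    have e1 : (b * (conj b * dlk S B t (z k) (z k))).re
        = L ^ 2 * ‖c ^ k‖ ^ 2 * (dlk S B t (z k) (z k)).re := by
      rw [← mul_assoc, Complex.mul_conj', ← Complex.ofReal_pow, Complex.re_ofReal_mul, hb,
        norm_mul, Complex.norm_real, Complex.norm_conj, mul_pow, Real.norm_eq_abs, sq_abs]
    have e2 : (conj b * dlk S B t (z k) F).re = L * (c ^ k * dlk S B t (z k) F).re := by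
      rw [hb, map_mul, Complex.conj_conj, Complex.conj_ofReal, mul_assoc, Complex.re_ofReal_mul]
    rw [e1, e2] at h1
    have hck : ‖c ^ k‖ ^ 2 ≤ 1 := pow_le_one₀ (norm_nonneg _) (by
      rw [norm_pow]; exact pow_le_one₀ (norm_nonneg _) hc)
    have h4 : L ^ 2 * ‖c ^ k‖ ^ 2 * (dlk S B t (z k) (z k)).re
        ≤ L ^ 2 * (dlk S B t (z k) (z k)).re := by
      refine mul_le_mul_of_nonneg_right ?_ (hq (z k))
      exact mul_le_of_le_one_right (sq_nonneg L) hck
    rw [div_add_div _ _ two_ne_zero (by positivity), le_div_iff₀ (by positivity)]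
    linarith
  have hzero : (dlk S B t (z 0) F).re ≤
      ((dlk S B t x x).re - (dlk S B t (z 0) (z 0)).re) / 2 - (dlk S B t F F).re / 2 := by
    have h1 : dlk S B t F F = conj c * c * dlk S B t x x - conj c * dlk S B t x (z 0)
        - c * dlk S B t (z 0) x + dlk S B t (z 0) (z 0) := by
      simp only [hF, dlk_sub_left, dlk_sub_right, dlk_smul_left, dlk_smul_right]
      ring
    have h2 : dlk S B t (z 0) F = c * dlk S B t (z 0) x - dlk S B t (z 0) (z 0) := by
      simp only [hF, dlk_sub_right, dlk_smul_right]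
    have h3 : (conj c * dlk S B t x (z 0)).re = (c * dlk S B t (z 0) x).re := by
      rw [← dlk_conj t (z 0) x, ← map_mul, Complex.conj_re]
    have h4 : (conj c * c * dlk S B t x x).re ≤ (dlk S B t x x).re := by
      rw [Complex.conj_mul', ← Complex.ofReal_pow, Complex.re_ofReal_mul]
      exact mul_le_of_le_one_left (hq x) (pow_le_one₀ (norm_nonneg _) hc)
    rw [h1, h2]
    simp only [Complex.sub_re, Complex.add_re]
    linarith
  rw [Complex.re_sum, sum_range_succ']
  simp only [pow_zero, one_mul]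
  have e : ∀ k : ℕ, ((a : ℂ) ^ k * (c ^ k * dlk S B t (z k) F)).re
      = a ^ k * (c ^ k * dlk S B t (z k) F).re := fun k => by
    rw [← Complex.ofReal_pow, Complex.re_ofReal_mul]
  simp only [e]
  have hsum : ∑ k ∈ range (m + 1), a ^ (k + 1) * (c ^ (k + 1) * dlk S B t (z (k + 1)) F).re
      ≤ L / 2 * ∑ k ∈ range (m + 1), a ^ (k + 1) * (dlk S B t (z (k + 1)) (z (k + 1))).re
        + (dlk S B t F F).re / 2 := by
    refine (sum_le_sum fun k _ => mul_le_mul_of_nonneg_left (hterm (k + 1)) (pow_pos ha _).le).trans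
      (le_of_eq ?_)
    simp only [mul_add, sum_add_distrib, ← sum_mul, ← hL, mul_sum]
    congr 1
    · exact sum_congr rfl fun k _ => by ring
    · field_simp
  linarith

theorem norm_cauchy_le (hS : Sep S B) :
    ∃ C : ℝ, ∀ φ : ℝ → ℂ, (∀ t, ‖φ t‖ ≤ 1) → ∀ u v : E, ‖cauchy S B φ u v‖ ≤ C * ‖u‖ * ‖v‖ := by
  have hc : Continuous fun t => ‖S.den t‖ * ‖res S B 1 t‖ :=
    S.continuous_den.norm.mul (continuous_res hS ⟨zero_le_one, le_rfl⟩).norm
  obtain ⟨M, hM⟩ := (isCompact_uIcc (a := (0 : ℝ)) (b := 2 * π)).exists_bound_of_continuousOn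
    hc.continuousOn
  refine ⟨M * |2 * π - 0|, fun φ hφ u v => ?_⟩
  refine (intervalIntegral.norm_integral_le_of_norm_le_const (C := M * (‖u‖ * ‖v‖))
    fun t ht => ?_).trans (le_of_eq (by ring))
  have h1 := hM t (Set.uIoc_subset_uIcc ht)
  rw [Real.norm_eq_abs, abs_of_nonneg (by positivity)] at h1
  rw [norm_mul, norm_mul]
  calc ‖φ t‖ * (‖S.den t‖ * ‖⟪u, res S B 1 t v⟫_ℂ‖)
      ≤ 1 * (‖S.den t‖ * (‖u‖ * (‖res S B 1 t‖ * ‖v‖))) :=
        mul_le_mul (hφ t) (mul_le_mul_of_nonneg_left ((norm_inner_le_norm _ _).trans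
          (mul_le_mul_of_nonneg_left ((res S B 1 t).le_opNorm v) (norm_nonneg u))) (norm_nonneg _))
          (by positivity) zero_le_one
    _ = ‖S.den t‖ * ‖res S B 1 t‖ * (‖u‖ * ‖v‖) := by ring
    _ ≤ M * (‖u‖ * ‖v‖) := mul_le_mul_of_nonneg_right h1 (by positivity)

theorem exists_singular_pair [Nontrivial E] (T : E →L[ℂ] E) (hT : 0 < ‖T‖) :
    ∃ x y : E, ‖x‖ = 1 ∧ ‖y‖ = 1 ∧ T x = (‖T‖ : ℂ) • y ∧
      ContinuousLinearMap.adjoint T y = (‖T‖ : ℂ) • x := by
  have : NormedSpace ℝ E := inferInstance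
  have : ProperSpace E := FiniteDimensional.proper ℂ E
  obtain ⟨e, he⟩ := exists_ne (0 : E)
  have hne : (Metric.sphere (0 : E) 1).Nonempty :=
    ⟨(‖e‖ : ℂ)⁻¹ • e, by simp [norm_smul, norm_ne_zero_iff.2 he]⟩
  obtain ⟨x, hx, hmax⟩ := (isCompact_sphere (0 : E) 1).exists_isMaxOn hne
    T.continuous.norm.continuousOn
  rw [mem_sphere_zero_iff_norm] at hx
  have hTx : ‖T x‖ = ‖T‖ := by
    refine le_antisymm (by simpa [hx] using T.le_opNorm x) ?_
    refine T.opNorm_le_bound (norm_nonneg _) fun v => ?_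
    rcases eq_or_ne v 0 with rfl | hv
    · simp
    · have hn : ‖v‖ ≠ 0 := norm_ne_zero_iff.2 hv
      have h : ‖T ((‖v‖ : ℂ)⁻¹ • v)‖ ≤ ‖T x‖ := hmax (by simp [norm_smul, hn])
      rw [map_smul, norm_smul, norm_inv, Complex.norm_real, norm_norm,
        inv_mul_le_iff₀ (by positivity)] at h
      linarith
  have hK : (‖T‖ : ℂ) ≠ 0 := by exact_mod_cast hT.ne'
  refine ⟨x, (‖T‖ : ℂ)⁻¹ • T x, hx, ?_, by rw [smul_smul, mul_inv_cancel₀ hK, one_smul], ?_⟩
  · rw [norm_smul, norm_inv, Complex.norm_real, norm_norm, hTx, inv_mul_cancel₀ hT.ne']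
  · have h0 : ContinuousLinearMap.adjoint T (T x) = ((‖T‖ ^ 2 : ℝ) : ℂ) • x := by
      rw [← sub_eq_zero, ← norm_le_zero_iff]
      have h1 : ‖ContinuousLinearMap.adjoint T (T x) - ((‖T‖ ^ 2 : ℝ) : ℂ) • x‖ ^ 2 ≤ 0 := by
        rw [norm_sub_sq (𝕜 := ℂ), inner_smul_right, ContinuousLinearMap.adjoint_inner_left,
          inner_self_eq_norm_sq_to_K, norm_smul, Complex.norm_real, hx, hTx, Real.norm_eq_abs]
        have h2 : ‖ContinuousLinearMap.adjoint T (T x)‖ ≤ ‖T‖ * ‖T‖ := by
          calc _ ≤ ‖ContinuousLinearMap.adjoint T‖ * ‖T x‖ :=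
                (ContinuousLinearMap.adjoint T).le_opNorm _
            _ = ‖T‖ * ‖T‖ := by rw [ContinuousLinearMap.adjoint.norm_map, hTx]
        simp only [RCLike.re_to_complex, Complex.re_ofReal_mul, ← Complex.ofReal_pow,
          RCLike.ofReal_eq_complex_ofReal, Complex.ofReal_re, mul_one, abs_pow, abs_norm]
        nlinarith [pow_le_pow_left₀ (norm_nonneg _) h2 2]
      nlinarith [norm_nonneg (ContinuousLinearMap.adjoint T (T x) - ((‖T‖ ^ 2 : ℝ) : ℂ) • x)]
    rw [map_smul, h0, smul_smul]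
    congr 1
    push_cast
    field_simp

/-- Polynomials bounded by one on the curve have norm at most two at the operator. -/
theorem norm_aeval_le_two [Nontrivial E] (hS : Sep S B) (P : Polynomial ℂ)
    (hP : ∀ t, ‖P.eval (S.pt t)‖ ≤ 1) : ‖Polynomial.aeval B P‖ ≤ 2 := by
  by_contra hlt
  push Not at hlt
  set T := Polynomial.aeval B P with hT
  set K := ‖T‖ with hK
  have hK0 : 0 < K := by linarith
  obtain ⟨x, y, hx, hy, hTx, hTy⟩ := exists_singular_pair T hK0
  set a : ℝ := 1 / K with ha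
  have ha0 : 0 < a := by positivity
  set f : ℝ → ℂ := fun t => P.eval (S.pt t) with hf
  have hfc : Continuous f := P.continuous.comp S.continuous_pt
  let z : ℕ → E := fun k => (T ^ k) y
  have hz0 : z 0 = y := rfl
  let W : ℕ → ℂ := fun k => cauchy S B (fun t => conj (f t ^ k)) y (z k)
  have hpow : ∀ k u v, cauchy S B (fun t => f t ^ k) u v = ⟪u, (T ^ k) v⟫_ℂ := by
    intro k u v
    have := cauchy_poly hS (P ^ k) u v
    simpa [Polynomial.eval_pow, hT, hf] using this
  have hcomm : ∀ t, Commute T (res S B 1 t) := fun t =>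
    commute_res (by
      rw [hT]
      simpa using (Commute.all P Polynomial.X).map (Polynomial.aeval B)) 1 t
  -- moving the singular vector onto the other side
  have hmove : ∀ (φ : ℝ → ℂ) (v : E),
      (K : ℂ) * cauchy S B φ x v = cauchy S B φ y (T v) := by
    intro φ v
    unfold cauchy
    rw [← intervalIntegral.integral_const_mul]
    congr 1
    ext t
    have h1 : (K : ℂ) * ⟪x, res S B 1 t v⟫_ℂ = ⟪y, res S B 1 t (T v)⟫_ℂ := by
      have h2 : T (res S B 1 t v) = res S B 1 t (T v) :=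
        congrArg (fun f : E →L[ℂ] E => f v) (hcomm t).eq
      rw [← h2, ← ContinuousLinearMap.adjoint_inner_left T, hTy, inner_smul_left,
        Complex.conj_ofReal]
    calc (K : ℂ) * (φ t * (S.den t * ⟪x, res S B 1 t v⟫_ℂ))
        = φ t * (S.den t * ((K : ℂ) * ⟪x, res S B 1 t v⟫_ℂ)) := by ring
      _ = _ := by rw [h1]
  have hzT : ∀ k, T (z k) = z (k + 1) := fun k => by
    change T ((T ^ k) y) = (T ^ (k + 1)) y
    rw [pow_succ']
    rfl
  have hTkx : ∀ k, (T ^ (k + 1)) x = (K : ℂ) • z k := fun k => by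
    rw [pow_succ]
    change (T ^ k) (T x) = _
    rw [hTx, map_smul]
  have hnz : ∀ k, ⟪z k, z k⟫_ℂ = ((‖z k‖ ^ 2 : ℝ) : ℂ) := fun k => by
    push_cast
    exact_mod_cast inner_self_eq_norm_sq_to_K (𝕜 := ℂ) (z k)
  have hint : ∀ k, ∫ t in (0 : ℝ)..2 * π, f t ^ k * dlk S B t (z k) (f t • x - y)
      = ((K - 1) * ‖z k‖ ^ 2 : ℝ) + (conj (W (k + 1)) / (K : ℂ) - conj (W k)) := by
    intro k
    simp only [dlk_sub_right, dlk_smul_right, mul_sub, ← mul_assoc, ← pow_succ]
    rw [intervalIntegral.integral_sub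
      (((hfc.fun_pow (k + 1)).fun_mul (continuous_dlk hS _ _)).intervalIntegrable _ _)
      (((hfc.fun_pow k).fun_mul (continuous_dlk hS _ _)).intervalIntegrable _ _),
      integral_mul_dlk hS (hfc.fun_pow (k + 1)), integral_mul_dlk hS (hfc.fun_pow k),
      hpow, hpow, hTkx, inner_smul_right]
    have h1 : cauchy S B (fun t => conj (f t ^ (k + 1))) x (z k) = W (k + 1) / (K : ℂ) := by
      rw [eq_div_iff (by exact_mod_cast hK0.ne'), mul_comm, hmove, hzT]
    rw [h1, map_div₀, Complex.conj_ofReal]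
    change (K : ℂ) * ⟪z k, z k⟫_ℂ + _ - (⟪z k, z k⟫_ℂ + conj (W k)) = _
    rw [hnz]
    push_cast
    ring
  have hW0 : W 0 = 1 := by
    have h := hpow 0 y y
    simp only [pow_zero, ContinuousLinearMap.one_apply] at h
    have hyy : ⟪y, y⟫_ℂ = 1 := by rw [← hz0, hnz, hz0, hy]; norm_num
    simp only [W, pow_zero, map_one, hz0]
    rw [h, hyy]
  obtain ⟨C, hC⟩ := norm_cauchy_le hS
  have hfk : ∀ k t, ‖f t ^ k‖ ≤ 1 := fun k t => by
    rw [norm_pow]; exact pow_le_one₀ (norm_nonneg _) (hP t)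
  have hC0 : 0 ≤ C := by
    have h := hC (fun _ => 0) (fun _ => by simp) x x
    rw [hx] at h
    simpa [cauchy] using h
  have hzb : ∀ k, ‖z k‖ ≤ C := fun k => by
    have h := hC _ (hfk k) (z k) y
    rw [hpow, show (T ^ k) y = z k from rfl, hnz, Complex.norm_real, hy, mul_one,
      Real.norm_eq_abs, abs_of_nonneg (by positivity)] at h
    rcases (norm_nonneg (z k)).eq_or_lt with h0 | h0
    · rw [← h0]; exact hC0
    · nlinarith
  have hWb : ∀ k, |(W k).re| ≤ C * C := fun k => by
    refine (Complex.abs_re_le_norm _).trans ((hC _ (fun t => ?_) y (z k)).trans ?_)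
    · rw [Complex.norm_conj]; exact hfk k t
    · rw [hy, mul_one]; exact mul_le_mul_of_nonneg_left (hzb k) hC0
  have main : ∀ m : ℕ, K - 2 ≤ C * C * a ^ (m + 2) := by
    intro m
    set G : ℝ → ℂ := fun t =>
      ∑ k ∈ range (m + 2), (a : ℂ) ^ k * (f t ^ k * dlk S B t (z k) (f t • x - z 0)) with hG
    have hGterm : ∀ k, Continuous fun t => (a : ℂ) ^ k *
        (f t ^ k * dlk S B t (z k) (f t • x - z 0)) := fun k => by
      simp only [dlk_sub_right, dlk_smul_right]
      exact continuous_const.mul ((hfc.pow k).mul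
        ((hfc.mul (continuous_dlk hS _ _)).sub (continuous_dlk hS _ _)))
    have hGc : Continuous G := continuous_finsetSum _ fun k _ => hGterm k
    have hGi : ∫ t in (0 : ℝ)..2 * π, G t = ∑ k ∈ range (m + 2), (a : ℂ) ^ k *
        (((K - 1) * ‖z k‖ ^ 2 : ℝ) + (conj (W (k + 1)) / (K : ℂ) - conj (W k))) := by
      rw [hG, intervalIntegral.integral_finsetSum fun k _ => (hGterm k).intervalIntegrable _ _]
      exact sum_congr rfl fun k _ => by rw [intervalIntegral.integral_const_mul, hz0, hint]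
    have htel : ∑ k ∈ range (m + 2), (a : ℂ) ^ k * (conj (W (k + 1)) / (K : ℂ) - conj (W k))
        = (a : ℂ) ^ (m + 2) * conj (W (m + 2)) - 1 := by
      have e : ∀ k : ℕ, (a : ℂ) ^ k * (conj (W (k + 1)) / (K : ℂ) - conj (W k))
          = (a : ℂ) ^ (k + 1) * conj (W (k + 1)) - (a : ℂ) ^ k * conj (W k) := fun k => by
        rw [ha]; push_cast; ring
      rw [sum_congr rfl fun k _ => e k, sum_range_sub (fun k => (a : ℂ) ^ k * conj (W k))]
      simp [hW0]
    have hre : (∫ t in (0 : ℝ)..2 * π, G t).re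
        = (K - 1) * ∑ k ∈ range (m + 2), a ^ k * ‖z k‖ ^ 2 + (a ^ (m + 2) * (W (m + 2)).re - 1) := by
      rw [hGi, sum_congr rfl fun k _ => mul_add _ _ _, sum_add_distrib, htel]
      simp only [Complex.add_re, Complex.sub_re, Complex.re_sum,
        ← Complex.ofReal_pow, Complex.re_ofReal_mul, Complex.ofReal_re, Complex.conj_re,
        Complex.one_re, mul_sum]
      congr 1
      exact sum_congr rfl fun k _ => by ring
    have hrec := Complex.reCLM.intervalIntegral_comp_comm (f := G)
      (hGc.intervalIntegrable (μ := volume) (0 : ℝ) (2 * π))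
    simp only [Complex.reCLM_apply] at hrec
    set L := ∑ k ∈ range (m + 1), a ^ (k + 1) with hL
    have hD : ∀ u, IntervalIntegrable (fun t => (dlk S B t u u).re) volume 0 (2 * π) := fun u =>
      (Complex.continuous_re.comp (continuous_dlk hS u u)).intervalIntegrable _ _
    have hle := intervalIntegral.integral_mono_on (a := 0) (b := 2 * π) (μ := volume)
      (f := fun t => (G t).re)
      (g := fun t => ((dlk S B t x x).re - (dlk S B t (z 0) (z 0)).re) / 2 + L / 2
        * ∑ k ∈ range (m + 1), a ^ (k + 1) * (dlk S B t (z (k + 1)) (z (k + 1))).re)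
      (by positivity) ((Complex.continuous_re.comp hGc).intervalIntegrable _ _)
      (by
        refine Continuous.intervalIntegrable ?_ _ _
        exact (((Complex.continuous_re.comp (continuous_dlk hS x x)).sub
          (Complex.continuous_re.comp (continuous_dlk hS _ _))).div_const _).add
          (continuous_const.mul (continuous_finsetSum _ fun k _ =>
            continuous_const.mul (Complex.continuous_re.comp (continuous_dlk hS _ _)))))
      (fun t _ => pointwise_bound hS t (hP t) x z ha0 m)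
    rw [hrec, hre, intervalIntegral.integral_add, intervalIntegral.integral_div,
      intervalIntegral.integral_sub (hD x) (hD _), integral_dlk_self hS, integral_dlk_self hS,
      intervalIntegral.integral_const_mul,
      intervalIntegral.integral_finsetSum fun k _ => (hD _).const_mul _, hz0, hx, hy] at hle
    · simp only [intervalIntegral.integral_const_mul, integral_dlk_self hS] at hle
      rw [sum_range_succ', pow_zero, one_mul, hz0, hy] at hle
      set A := ∑ k ∈ range (m + 1), a ^ (k + 1) * ‖z (k + 1)‖ ^ 2 with hA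
      have e : ∑ k ∈ range (m + 1), a ^ (k + 1) * (2 * ‖z (k + 1)‖ ^ 2) = 2 * A := by
        rw [hA, mul_sum]; exact sum_congr rfl fun k _ => by ring
      rw [e] at hle
      have hA0 : 0 ≤ A := sum_nonneg fun k _ => by positivity
      have hL1 : L ≤ K - 1 := by
        have h1 : L * (K - 1) = 1 - a ^ (m + 1) := by
          have hKa : K * a = 1 := by rw [ha]; field_simp
          have e1 : ∀ k : ℕ, a ^ (k + 1) * (K - 1) = a ^ k - a ^ (k + 1) := fun k => by
            linear_combination (a ^ k) * hKa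
          rw [hL, sum_mul, sum_congr rfl fun k _ => e1 k, sum_range_sub', pow_zero]
        have h2 : 0 ≤ a ^ (m + 1) := by positivity
        nlinarith
      have h3 := abs_le.1 (hWb (m + 2))
      have h4 : 0 ≤ a ^ (m + 2) := by positivity
      nlinarith [mul_nonneg h4 (show 0 ≤ (W (m + 2)).re + C * C by linarith [h3.1]),
        mul_nonneg (sub_nonneg.2 hL1) hA0]
    · exact ((hD x).sub (hD _)).div_const _
    · exact (IntervalIntegrable.sum (range (m + 1)) fun k _ =>
        (hD (z (k + 1))).const_mul (a ^ (k + 1))).const_mul (L / 2)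
        |>.congr (fun t _ => by simp [Finset.sum_apply])
  have ha1 : a < 1 := by rw [ha, div_lt_one hK0]; linarith
  have hlim : Filter.Tendsto (fun m : ℕ => C * C * a ^ (m + 2)) Filter.atTop (nhds (C * C * 0)) :=
    (((tendsto_pow_atTop_nhds_zero_of_lt_one ha0.le ha1).comp
      (Filter.tendsto_add_atTop_nat 2)).const_mul _)
  rw [mul_zero] at hlim
  have := ge_of_tendsto hlim (Filter.Eventually.of_forall main)
  linarith

end Vale.Agent.P123
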