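import Mathlib

/-!
Numerical range: convexity (Toeplitz-Hausdorff) and compactness in finite dimension.
-/

namespace Vale.Agent.P123

open scoped ComplexConjugate InnerProductSpace

variable {E : Type*} [NormedAddCommGroup E] [InnerProductSpace ℂ E]

/-- The numerical range. Mathlib's inner product is linear in the second argument. -/
def numRange (A : E →L[ℂ] E) : Set ℂ := {z | ∃ x : E, ‖x‖ = 1 ∧ ⟪x, A x⟫_ℂ = z}

theorem isCompact_numRange [FiniteDimensional ℂ E] (A : E →L[ℂ] E) :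
    IsCompact (numRange A) := by
  have : ProperSpace E := FiniteDimensional.proper ℂ E
  have h : numRange A = (fun x => ⟪x, A x⟫_ℂ) '' Metric.sphere (0 : E) 1 := by
    ext z
    simp [numRange]
  rw [h]
  exact (isCompact_sphere _ _).image (continuous_id.inner A.continuous)

theorem inner_self_mem (A : E →L[ℂ] E) {u : E} (hu : u ≠ 0) :
    ⟪u, A u⟫_ℂ / (‖u‖ : ℂ) ^ 2 ∈ numRange A := by
  have h0 : ‖u‖ ≠ 0 := norm_ne_zero_iff.2 hu
  have h1 : (‖u‖ : ℂ) ≠ 0 := by exact_mod_cast h0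
  refine ⟨(‖u‖ : ℂ)⁻¹ • u, ?_, ?_⟩
  · simp [norm_smul, h0]
  · rw [map_smul, inner_smul_left, inner_smul_right, map_inv₀, Complex.conj_ofReal]
    field_simp

theorem sq_norm_cast (u : E) : ⟪u, u⟫_ℂ = ((‖u‖ : ℂ)) ^ 2 := by
  exact_mod_cast inner_self_eq_norm_sq_to_K (𝕜 := ℂ) u

theorem inner_combination (T : E →L[ℂ] E) (x y : E) (r s : ℝ) (ω : ℂ) :
    ⟪(r : ℂ) • x + ((s : ℂ) * ω) • y, T ((r : ℂ) • x + ((s : ℂ) * ω) • y)⟫_ℂ
      = (r : ℂ) ^ 2 * ⟪x, T x⟫_ℂ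
        + (r : ℂ) * (s : ℂ) * (ω * ⟪x, T y⟫_ℂ + conj ω * ⟪y, T x⟫_ℂ)
        + (s : ℂ) ^ 2 * (ω * conj ω) * ⟪y, T y⟫_ℂ := by
  simp only [map_add, map_smul, inner_add_left, inner_add_right, inner_smul_left,
    inner_smul_right, map_mul, Complex.conj_ofReal]
  ring

theorem convex_numRange (A : E →L[ℂ] E) : Convex ℝ (numRange A) := by
  rintro a ⟨x, hx, rfl⟩ b ⟨y, hy, rfl⟩ p q hp hq hpq
  set a := ⟪x, A x⟫_ℂ with ha
  set b := ⟪y, A y⟫_ℂ with hb
  by_cases hab : a = b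
  · rw [← hab, ← add_smul, hpq, one_smul]
    exact ⟨x, hx, rfl⟩
  set T : E →L[ℂ] E := (b - a)⁻¹ • (A - a • ContinuousLinearMap.id ℂ E) with hT
  have hd : b - a ≠ 0 := sub_ne_zero.2 (Ne.symm hab)
  have hTi : ∀ u v, ⟪u, T v⟫_ℂ = (b - a)⁻¹ * (⟪u, A v⟫_ℂ - a * ⟪u, v⟫_ℂ) := by
    intro u v
    simp [hT, inner_smul_right, inner_sub_right]
  have hxx : ⟪x, x⟫_ℂ = 1 := by rw [sq_norm_cast, hx]; norm_num
  have hyy : ⟪y, y⟫_ℂ = 1 := by rw [sq_norm_cast, hy]; norm_num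
  have hTx : ⟪x, T x⟫_ℂ = 0 := by rw [hTi, hxx, ← ha]; ring
  have hTy : ⟪y, T y⟫_ℂ = 1 := by rw [hTi, hyy, ← hb, mul_one, inv_mul_cancel₀ hd]
  -- a phase making the cross term real
  obtain ⟨ω, hω, hreal⟩ : ∃ ω : ℂ, ω * conj ω = 1 ∧
      (ω * ⟪x, T y⟫_ℂ + conj ω * ⟪y, T x⟫_ℂ).im = 0 := by
    set d := ⟪x, T y⟫_ℂ - conj ⟪y, T x⟫_ℂ with hd'
    by_cases h0 : d = 0
    · refine ⟨1, by simp, ?_⟩
      have h1 : (⟪x, T y⟫_ℂ - conj ⟪y, T x⟫_ℂ).im = 0 := by rw [← hd', h0]; rfl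
      simp only [Complex.sub_im, Complex.conj_im, sub_neg_eq_add] at h1
      simpa using h1
    · refine ⟨conj d / (‖d‖ : ℂ), ?_, ?_⟩
      · have hn : (‖d‖ : ℂ) ≠ 0 := by exact_mod_cast norm_ne_zero_iff.2 h0
        rw [map_div₀, Complex.conj_conj, Complex.conj_ofReal, div_mul_div_comm,
          Complex.conj_mul' d, ← sq, div_self (pow_ne_zero 2 hn)]
      · set ω := conj d / (‖d‖ : ℂ) with hω'
        have h1 : (ω * ⟪x, T y⟫_ℂ + conj ω * ⟪y, T x⟫_ℂ).im = (ω * d).im := by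
          simp only [hd', Complex.add_im, Complex.mul_im, Complex.sub_re, Complex.sub_im,
            Complex.conj_re, Complex.conj_im]
          ring
        rw [h1, hω', div_mul_eq_mul_div, Complex.conj_mul', Complex.div_ofReal_im, ← Complex.ofReal_pow,
          Complex.ofReal_im, zero_div]
  set R := (ω * ⟪x, T y⟫_ℂ + conj ω * ⟪y, T x⟫_ℂ).re with hR
  have hcross : ω * ⟪x, T y⟫_ℂ + conj ω * ⟪y, T x⟫_ℂ = (R : ℂ) :=
    Complex.ext (by simp [hR]) (by simpa using hreal)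
  set u : ℝ → E := fun θ => (Real.cos θ : ℂ) • x + ((Real.sin θ : ℂ) * ω) • y with hu
  have hu0 : ∀ θ, u θ ≠ 0 := by
    intro θ h
    simp only [hu] at h
    rcases eq_or_ne (Real.sin θ) 0 with hs | hs
    · have hc : (Real.cos θ : ℂ) ≠ 0 := by
        intro hc
        have := Real.sin_sq_add_cos_sq θ
        rw [hs, Complex.ofReal_eq_zero.1 hc] at this
        norm_num at this
      rw [hs, Complex.ofReal_zero, zero_mul, zero_smul, add_zero] at h
      rw [(smul_eq_zero.1 h).resolve_left hc, norm_zero] at hx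
      exact zero_ne_one hx
    · have hsω : ((Real.sin θ : ℂ) * ω) ≠ 0 := by
        refine mul_ne_zero (by exact_mod_cast hs) ?_
        intro hz
        simp [hz] at hω
      have hy' : y = (-((Real.sin θ : ℂ) * ω)⁻¹ * (Real.cos θ : ℂ)) • x := by
        rw [← smul_smul, neg_smul, eq_comm, neg_eq_iff_eq_neg, inv_smul_eq_iff₀ hsω, smul_neg,
          eq_neg_iff_add_eq_zero]
        exact h
      set c := -((Real.sin θ : ℂ) * ω)⁻¹ * (Real.cos θ : ℂ)
      have e2 := hTy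
      rw [hy', map_smul, inner_smul_left, inner_smul_right, hTx] at e2
      simp at e2
  set g : ℝ → ℝ := fun θ => (Real.cos θ * Real.sin θ * R + Real.sin θ ^ 2) / ‖u θ‖ ^ 2 with hg
  have hgu : ∀ θ, ⟪u θ, T (u θ)⟫_ℂ / (‖u θ‖ : ℂ) ^ 2 = (g θ : ℂ) := by
    intro θ
    simp only [hg, hu]
    rw [inner_combination, hTx, hTy, hω, hcross]
    push_cast
    ring
  have hgc : Continuous g := by
    refine Continuous.div (by fun_prop) ?_ fun θ => pow_ne_zero 2 (norm_ne_zero_iff.2 (hu0 θ))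
    fun_prop
  have hg0 : g 0 = 0 := by simp [hg]
  have hg1 : g (Real.pi / 2) = 1 := by
    have hn : ‖u (Real.pi / 2)‖ = 1 := by
      have h1 : ‖ω‖ = 1 := by
        rw [Complex.mul_conj'] at hω
        exact (pow_eq_one_iff_of_nonneg (norm_nonneg ω) two_ne_zero).1 (by exact_mod_cast hω)
      simp [hu, norm_smul, h1, hy]
    simp only [hg, hn, Real.cos_pi_div_two, Real.sin_pi_div_two]
    norm_num
  obtain ⟨θ, -, hθ⟩ := intermediate_value_Icc (by positivity) hgc.continuousOn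
    (show q ∈ Set.Icc (g 0) (g (Real.pi / 2)) by rw [hg0, hg1]; exact ⟨hq, by linarith⟩)
  have hn : (‖u θ‖ : ℂ) ≠ 0 := by exact_mod_cast norm_ne_zero_iff.2 (hu0 θ)
  have key := hgu θ
  rw [hTi, hθ, sq_norm_cast] at key
  have h1 : ⟪u θ, A (u θ)⟫_ℂ / (‖u θ‖ : ℂ) ^ 2 = a + (q : ℂ) * (b - a) := by
    rw [← key]
    field_simp
    ring
  have h2 : p • a + q • b = ⟪u θ, A (u θ)⟫_ℂ / (‖u θ‖ : ℂ) ^ 2 := by
    rw [h1, Complex.real_smul, Complex.real_smul, show p = 1 - q by linarith]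
    push_cast
    ring
  rw [h2]
  exact inner_self_mem A (hu0 θ)

end Vale.Agent.P123
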