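import Mathlib
import Vale.Agent.P123.NumRange
import Vale.Agent.P123.Kernel

/-!
Crouzeix's inequality with constant two, and its sharpness.
-/

namespace Vale.Agent.P123

open scoped ComplexConjugate InnerProductSpace Real
open Polynomial

theorem crouzeix_finite {E : Type*} [NormedAddCommGroup E] [InnerProductSpace ℂ E]
    [FiniteDimensional ℂ E] [Nontrivial E] (B : E →L[ℂ] E) (P : ℂ[X]) {M : ℝ}
    (hM : ∀ z ∈ numRange B, ‖P.eval z‖ ≤ M) : ‖aeval B P‖ ≤ 2 * M := by
  have : CompleteSpace E := FiniteDimensional.complete ℂ E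
  obtain ⟨e, he⟩ := exists_ne (0 : E)
  have hw0 : ⟪e, B e⟫_ℂ / (‖e‖ : ℂ) ^ 2 ∈ numRange B := inner_self_mem B he
  set w₀ := ⟪e, B e⟫_ℂ / (‖e‖ : ℂ) ^ 2
  set B' : E →L[ℂ] E := B - w₀ • 1 with hB'
  set P' : ℂ[X] := P.comp (X + C w₀) with hP'
  have hev : aeval B' P' = aeval B P := by
    rw [hP', aeval_comp]
    simp [hB', Algebra.algebraMap_eq_smul_one]
  have hnr : ∀ z, z ∈ numRange B' ↔ z + w₀ ∈ numRange B := by
    intro z
    simp only [numRange, Set.mem_ofPred_eq, hB']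
    refine exists_congr fun u => and_congr_right fun hu => ?_
    have huu : ⟪u, u⟫_ℂ = 1 := by rw [sq_norm_cast, hu]; norm_num
    simp only [FunLike.coe_sub, Pi.sub_apply, FunLike.coe_smul, Pi.smul_apply,
      ContinuousLinearMap.one_apply, inner_sub_right, inner_smul_right, huu, mul_one]
    exact sub_eq_iff_eq_add
  have h0 : (0 : ℂ) ∈ numRange B' := (hnr 0).2 (by rwa [zero_add])
  have hM0 : 0 ≤ M := (norm_nonneg _).trans (hM w₀ hw0)
  rw [← hev]
  refine le_of_forall_pos_le_add fun η hη => ?_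
  obtain ⟨δ, hδ, hsub⟩ := (isCompact_numRange B').exists_cthickening_subset_open
    (isOpen_lt (P'.continuous.norm) continuous_const)
    (show numRange B' ⊆ {z | ‖P'.eval z‖ < M + η / 2} from fun z hz => by
      simp only [Set.mem_ofPred_eq, hP', eval_comp, eval_add, eval_X, eval_C]
      linarith [hM _ ((hnr z).1 hz)])
  obtain ⟨S, hS1, hS2⟩ := exists_support (isCompact_numRange B') (convex_numRange B') h0 hδ
  have hsep : Sep S B' := by
    intro t u hu
    have h1 := hS1 t _ (inner_self_mem B' hu)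
    have h2 : ∀ z : ℂ, dirc t (z / (‖u‖ : ℂ) ^ 2) = dirc t z / ‖u‖ ^ 2 := by
      intro z
      rw [← Complex.ofReal_pow]
      simp only [dirc, Complex.div_ofReal_re, Complex.div_ofReal_im]
      ring
    rw [h2, div_lt_iff₀ (by positivity)] at h1
    exact h1
  have hbd : ∀ t, ‖(Polynomial.C (((M + η / 2 : ℝ) : ℂ)⁻¹) * P').eval (S.pt t)‖ ≤ 1 := by
    intro t
    obtain ⟨w, hw, hwd⟩ := hS2 t
    have h := hsub (Metric.mem_cthickening_of_dist_le _ w δ _ hw (by rwa [dist_eq_norm]))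
    simp only [Set.mem_ofPred_eq] at h
    rw [eval_mul, eval_C, norm_mul, norm_inv, Complex.norm_real, Real.norm_eq_abs,
      abs_of_pos (by linarith), inv_mul_le_iff₀ (by linarith), mul_one]
    exact h.le
  have hmain := norm_aeval_le_two hsep _ hbd
  rw [map_mul, aeval_C, ← Algebra.smul_def, norm_smul, norm_inv, Complex.norm_real,
    Real.norm_eq_abs, abs_of_pos (by linarith : 0 < M + η / 2),
    inv_mul_le_iff₀ (by linarith : 0 < M + η / 2)] at hmain
  linarith

theorem crouzeix_hilbert {H : Type*} [NormedAddCommGroup H] [InnerProductSpace ℂ H]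
    (A : H →L[ℂ] H) (P : ℂ[X]) {M : ℝ} (hM0 : 0 ≤ M)
    (hM : ∀ z ∈ numRange A, ‖P.eval z‖ ≤ M) : ‖aeval A P‖ ≤ 2 * M := by
  refine ContinuousLinearMap.opNorm_le_bound _ (by positivity) fun x => ?_
  rcases eq_or_ne x 0 with rfl | hx
  · simp
  let V : Submodule ℂ H := Submodule.span ℂ (Set.range fun k : Fin (P.natDegree + 1) => (A ^ (k : ℕ)) x)
  have hfin : FiniteDimensional ℂ V := FiniteDimensional.span_of_finite ℂ (Set.finite_range _)
  have hcomp : CompleteSpace V := FiniteDimensional.complete ℂ V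
  have hxV : x ∈ V := Submodule.subset_span ⟨0, by simp⟩
  have : Nontrivial V := ⟨⟨⟨x, hxV⟩, 0, fun h => hx (congrArg Subtype.val h)⟩⟩
  let B : V →L[ℂ] V := (V.orthogonalProjectionOnto).comp (A.comp V.subtypeL)
  have hnr : numRange B ⊆ numRange A := by
    rintro z ⟨u, hu, rfl⟩
    refine ⟨(u : H), hu, ?_⟩
    exact (V.inner_orthogonalProjectionOnto_eq_of_mem_left u (A u)).symm
  have hpow : ∀ k ≤ P.natDegree, ((B ^ k) ⟨x, hxV⟩ : H) = (A ^ k) x := by
    intro k
    induction k with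
    | zero => intro _; simp
    | succ k ih =>
      intro hk
      rw [pow_succ', pow_succ']
      change ((V.orthogonalProjectionOnto (A ((B ^ k) ⟨x, hxV⟩ : H))) : H) = A ((A ^ k) x)
      rw [ih (by omega)]
      have hmem : A ((A ^ k) x) ∈ V := Submodule.subset_span ⟨⟨k + 1, by omega⟩, by
        simp only [pow_succ']; rfl⟩
      exact congrArg Subtype.val (V.orthogonalProjectionOnto_mem_subspace_eq_self ⟨_, hmem⟩)
  have he : ((aeval B P) ⟨x, hxV⟩ : H) = (aeval A P) x := by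
    rw [aeval_eq_sum_range, aeval_eq_sum_range]
    simp only [FunLike.coe_sum, Finset.sum_apply, Submodule.coe_sum]
    refine Finset.sum_congr rfl fun k hk => ?_
    simp only [Finset.mem_range] at hk
    simp only [FunLike.coe_smul, Pi.smul_apply, Submodule.coe_smul]
    rw [hpow k (by omega)]
  have h := crouzeix_finite B P fun z hz => hM z (hnr hz)
  calc ‖(aeval A P) x‖ = ‖(aeval B P) ⟨x, hxV⟩‖ := by rw [← he]; rfl
    _ ≤ ‖aeval B P‖ * ‖(⟨x, hxV⟩ : V)‖ := (aeval B P).le_opNorm _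
    _ ≤ 2 * M * ‖x‖ := mul_le_mul_of_nonneg_right h (norm_nonneg _)

theorem crouzeix_sSup {H : Type*} [NormedAddCommGroup H] [InnerProductSpace ℂ H] [Nontrivial H]
    (A : H →L[ℂ] H) (P : ℂ[X]) :
    ‖aeval A P‖ ≤ 2 * sSup ((fun z => ‖P.eval z‖) '' numRange A) := by
  have hb : BddAbove ((fun z => ‖P.eval z‖) '' numRange A) := by
    refine BddAbove.mono (Set.image_mono ?_)
      ((isCompact_closedBall (0 : ℂ) ‖A‖).bddAbove_image P.continuous.norm.continuousOn)
    rintro z ⟨u, hu, rfl⟩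
    rw [mem_closedBall_zero_iff]
    calc ‖⟪u, A u⟫_ℂ‖ ≤ ‖u‖ * ‖A u‖ := norm_inner_le_norm _ _
      _ ≤ ‖A‖ := by rw [hu, one_mul]; simpa [hu] using A.le_opNorm u
  refine crouzeix_hilbert A P (Real.sSup_nonneg ?_) fun z hz => le_csSup hb ⟨z, hz, rfl⟩
  rintro _ ⟨z, -, rfl⟩
  exact norm_nonneg _

theorem two_le_of_bound {c : ℝ}
    (h : ∀ (A : EuclideanSpace ℂ (Fin 2) →L[ℂ] EuclideanSpace ℂ (Fin 2)) (P : ℂ[X]),
      ‖aeval A P‖ ≤ c * sSup ((fun z => ‖P.eval z‖) '' numRange A)) : 2 ≤ c := by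
  let A : EuclideanSpace ℂ (Fin 2) →L[ℂ] EuclideanSpace ℂ (Fin 2) :=
    (PiLp.proj 2 (fun _ : Fin 2 => ℂ) 1).smulRight (EuclideanSpace.single (0 : Fin 2) (1 : ℂ))
  have hA : 1 ≤ ‖A‖ := by
    have h1 := A.le_opNorm (EuclideanSpace.single (1 : Fin 2) (1 : ℂ))
    simpa [A] using h1
  have hsup : sSup ((fun z => ‖(X : ℂ[X]).eval z‖) '' numRange A) ≤ 1 / 2 := by
    refine Real.sSup_le ?_ (by norm_num)
    rintro _ ⟨z, ⟨u, hu, rfl⟩, rfl⟩
    have e : ⟪u, A u⟫_ℂ = u 1 * conj (u 0) := by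
      simp [A, inner_smul_right, EuclideanSpace.inner_single_right]
    have h2 : ‖u 0‖ ^ 2 + ‖u 1‖ ^ 2 = 1 := by
      have := EuclideanSpace.norm_sq_eq u
      rw [hu, Fin.sum_univ_two] at this
      linarith
    simp only [eval_X, e, norm_mul, Complex.norm_conj]
    nlinarith [sq_nonneg (‖u 0‖ - ‖u 1‖)]
  have hpos : 0 ≤ sSup ((fun z => ‖(X : ℂ[X]).eval z‖) '' numRange A) :=
    Real.sSup_nonneg (by rintro _ ⟨z, -, rfl⟩; exact norm_nonneg _)
  have h3 := h A X
  rw [aeval_X] at h3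
  by_contra hc
  rcases le_total 0 c with h0 | h0 <;> nlinarith

end Vale.Agent.P123
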